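import Crest.Agent.X262.Ends.Pl
import Crest.Agent.X262.Vb.Res

/-!
# Row 262, road B, ENDS (helper47): `good_of : VanStmt → SqStmt → MobStmt → GoodStmt`
-/

set_option autoImplicit false
set_option linter.unusedSectionVars false

noncomputable section

namespace Crest.Agent.X262.NumGood

open Crest.Agent.X277 Crest.Agent.X277.BD Crest.Agent.X277.Pst Crest.Agent.X277.BD.Cyc Polynomial
open Crest.Agent.X262.Hb Crest.Agent.X262.Vb Crest.Agent.X262.Ends
open Crest.Agent.X262.Bub96 (hv Tr tl_red)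
open Crest.Agent.X262.Node22 (scl chr pv_scl)

variable {J : Type} [Fintype J] [DecidableEq J] {io : J → Type} [∀ j, Fintype (io j)]
  [∀ j, DecidableEq (io j)] {A : Type} [Fintype A]
variable {K E L : Type} [Field K] [Algebra ℂ K] [Field E] [Algebra ℂ E] [Field L] [Algebra ℂ L]

/-! ### linear algebra -/

theorem par_of_minor {ι : Type} {v w : ι → E} (hv : ∃ i, v i ≠ 0) (hw : ∃ i, w i ≠ 0)
    (h : ∀ i i', v i * w i' = v i' * w i) : ∃ u : E, u ≠ 0 ∧ ∀ i, v i = u * w i := by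
  obtain ⟨i₀, h0⟩ := hw
  obtain ⟨i₁, h1⟩ := hv
  have key : ∀ i, v i = v i₀ / w i₀ * w i := fun i => by
    rw [div_mul_eq_mul_div, eq_div_iff h0, h]
  exact ⟨_, fun h2 => h1 (by rw [key, h2, zero_mul]), key⟩

theorem red_par (p : Pl ℂ L ℂ E) {ι : Type} {w : ι → L} {n s : L} (h1 : ∀ i, n * w i ∈ p.V.1)
    (h2 : ∃ i, p.V.v (n * w i) = 1) (h3 : ∀ i, s * w i ∈ p.V.1) :
    ∃ u : E, ∀ i, p.r (s * w i) = u * p.r (n * w i) := by
  obtain ⟨i₀, h0⟩ := h2
  have h4 : n * w i₀ ≠ 0 := RZ.ne_zero_iff.1 (h0 ▸ one_ne_zero)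
  have h5 : s * w i₀ / (n * w i₀) ∈ p.V.1 :=
    (RZ.le_iff h4).1 (h0 ▸ RZ.le_one_iff.2 (h3 i₀))
  refine ⟨p.r (s * w i₀ / (n * w i₀)), fun i => ?_⟩
  rw [← Pl.r_mul h5 (h1 i)]
  congr 1
  have := left_ne_zero_of_mul h4
  have := right_ne_zero_of_mul h4
  field_simp

theorem hc_par {B : Th} (hB : B.Ax) {y y' : Pnt io E} {j : J} (h : ∃ i, y' j i ≠ 0) {u : E}
    (hu : u ≠ 0) (e : ∀ i, y j i = u * y' j i) : hc B j E y = hc B j E y' := by
  have h1 : ln y j = pr ℂ u + ln y' j := by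
    rw [ln, show y j = fun i => u * y' j i from funext e]
    refine (eq_mxf (fun i => mul_mem_Sec (mem_Sec_pr _) (mem_Sec_mxf _ i)) fun V => ?_).symm
    obtain ⟨i, hi⟩ := exists_val_mxf (k := ℂ) h V
    exact ⟨i, by rw [map_mul, val_add, val_pr hu, hi]⟩
  change B.c1 _ = B.c1 _
  rw [h1, map_add, hB.c1_pr, zero_add]

/-! ### Gauss reduction -/

variable {d : J → ℕ}

theorem exists_gr (p : Pl ℂ L ℂ E) {F : (j : J) → io j → L[X]} (h : Cp d F) :
    ∃ s g, GR p F s g ∧ ∀ j i, (g j i).natDegree ≤ d j := by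
  have h1 : ∀ j, ∃ x : io j × Fin (d j + 1), (F j x.1).coeff x.2 ≠ 0 ∧
      ∀ i l, p.V.v ((F j i).coeff l) ≤ p.V.v ((F j x.1).coeff x.2) := fun j => by
    obtain ⟨i₀, h0⟩ := h.2.1 j
    obtain ⟨x, -, hx⟩ := Finset.exists_max_image Finset.univ
      (fun x : io j × Fin (d j + 1) => p.V.v ((F j x.1).coeff x.2))
      ⟨(i₀, Fin.last _), Finset.mem_univ _⟩
    refine ⟨x, fun h2 => h0 ?_, fun i l => ?_⟩
    · have := hx (i₀, Fin.last _) (Finset.mem_univ _)
      rw [h2, map_zero, le_zero_iff] at this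
      simpa using this
    · by_cases hl : l < d j + 1
      · exact hx (i, ⟨l, hl⟩) (Finset.mem_univ _)
      · rw [coeff_eq_zero_of_natDegree_lt (by have := h.1 j i; omega), map_zero]
        exact zero_le
  choose x h2 h3 using h1
  let s : J → L := fun j => ((F j (x j).1).coeff (x j).2)⁻¹
  let g : (j : J) → io j → E[X] := fun j i =>
    ∑ l ∈ Finset.range (d j + 1), monomial l (p.r (s j * (F j i).coeff l))
  have hg : ∀ j i l, (g j i).coeff l = p.r (s j * (F j i).coeff l) := fun j i l => by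
    simp only [g, finsetSum_coeff, coeff_monomial, Finset.sum_ite_eq', Finset.mem_range]
    split_ifs with hl
    · rfl
    · rw [coeff_eq_zero_of_natDegree_lt (by have := h.1 j i; omega), mul_zero, Pl.r_zero]
  refine ⟨s, g, ⟨fun j i l => ?_, fun j i l => (hg j i l).symm, fun j => ⟨(x j).1, (x j).2, ?_⟩⟩,
    fun j i => ?_⟩
  · rw [inv_mul_eq_div]
    exact (RZ.le_iff (h2 j)).1 (h3 j i l)
  · rw [hg, inv_mul_cancel₀ (h2 j), Pl.r_one]
  · rw [natDegree_le_iff_coeff_eq_zero]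
    intro l hl
    rw [hg, coeff_eq_zero_of_natDegree_lt ((h.1 j i).trans_lt hl), mul_zero, Pl.r_zero]

theorem r_sum (p : Pl ℂ L ℂ E) {ι : Type} (S : Finset ι) {x : ι → L} (h : ∀ i ∈ S, x i ∈ p.V.1) :
    p.r (∑ i ∈ S, x i) = ∑ i ∈ S, p.r (x i) := by
  classical
  induction S using Finset.induction_on with
  | empty => simp
  | insert a S ha ih =>
    rw [Finset.sum_insert ha, Finset.sum_insert ha,
      Pl.r_add (h a (by simp)) (sum_mem fun i hi => h i (by simp [hi])),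
      ih fun i hi => h i (by simp [hi])]

variable {p : LP L E} {F : (j : J) → io j → L[X]} {s : J → L} {g : (j : J) → io j → E[X]}

theorem gr_hv (h : GR p.toPl F s g) (hF : ∀ j i, (F j i).natDegree ≤ d j)
    (hg : ∀ j i, (g j i).natDegree ≤ d j) (τ : Option ℂ) (j : J) (i : io j) :
    s j * hv (d j) (F j i) (τ.map (algebraMap ℂ L)) ∈ p.V.1 ∧
      p.r (s j * hv (d j) (F j i) (τ.map (algebraMap ℂ L))) =
        hv (d j) (g j i) (τ.map (algebraMap ℂ E)) := by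
  rcases τ with _ | c
  · exact ⟨h.mem j i _, h.red j i _⟩
  · have h1 : ∀ l, s j * (F j i).coeff l * algebraMap ℂ L c ^ l ∈ p.V.1 := fun l =>
      mul_mem (h.mem j i l) (pow_mem (p.V.2 c) l)
    simp only [Option.map_some, hv]
    rw [eval_eq_sum_range' (Nat.lt_succ_of_le (hF j i)),
      eval_eq_sum_range' (Nat.lt_succ_of_le (hg j i)), Finset.mul_sum]
    simp only [← mul_assoc]
    refine ⟨sum_mem fun l _ => h1 l, ?_⟩
    rw [r_sum _ _ fun l _ => h1 l]
    refine Finset.sum_congr rfl fun l _ => ?_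
    rw [Pl.r_mul (h.mem j i l) (pow_mem (p.V.2 c) l), h.red, Pl.r_pow (p.V.2 c), p.lnr c]

variable {I : Type} [Fintype I] {η : Dat io d I L}

theorem gr_par (q : I) (j : J)
    (h1 : ∀ i, s j * hv (d j) (η.f j i) (η.x q) ∈ p.V.1) :
    ∃ u : E, ∀ i, p.r (s j * hv (d j) (η.f j i) (η.x q)) = u * (η.cfg.red p.toPl).y q j i :=
  red_par p.toPl (Cfg.pr_nrm η.cfg_nz p.V q j).1 (Cfg.pr_nrm η.cfg_nz p.V q j).2 h1

theorem gr_pt (h : GR p.toPl η.f s g) (hg : ∀ j i, (g j i).natDegree ≤ d j) {q : I} {τ : Option ℂ}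
    (hq : η.x q = τ.map (algebraMap ℂ L)) (j : J) :
    ∃ u : E, ∀ i, hv (d j) (g j i) (τ.map (algebraMap ℂ E)) = u * (η.cfg.red p.toPl).y q j i := by
  obtain ⟨u, hu⟩ := gr_par (p := p) (s := s) (η := η) q j fun i => hq ▸ (gr_hv h η.cp.1 hg τ j i).1
  exact ⟨u, fun i => by rw [← hu, hq, (gr_hv h η.cp.1 hg τ j i).2]⟩

theorem gr_const (h : GR p.toPl η.f s g) (hg : ∀ j i, (g j i).natDegree ≤ d j) (q : I) {j : J}
    (hj : d j = 0) : ∃ u : E, u ≠ 0 ∧ ∀ i, (g j i).coeff 0 = u * (η.cfg.red p.toPl).y q j i := by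
  have h1 : ∀ i, hv (d j) (η.f j i) (η.x q) = (η.f j i).coeff 0 := fun i => by
    rcases η.x q with _ | t
    · rw [hj]; rfl
    · rw [hv, eq_C_of_natDegree_le_zero ((η.cp.1 j i).trans hj.le)]
      simp
  obtain ⟨u, hu⟩ := gr_par (p := p) (s := s) (η := η) q j fun i => h1 i ▸ h.mem j i 0
  have h2 : ∀ i, (g j i).coeff 0 = u * (η.cfg.red p.toPl).y q j i := fun i => by
    rw [← hu, h1, h.red]
  refine ⟨u, fun h0 => ?_, h2⟩
  obtain ⟨i, l, hl⟩ := h.one j
  have h3 : l ≤ d j := (le_natDegree_of_ne_zero (hl ▸ one_ne_zero)).trans (hg j i)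
  obtain rfl : l = 0 := by omega
  rw [h2, h0, zero_mul] at hl
  exact zero_ne_one hl

/-! ### the reduced points lie on trees -/

variable {T : Tgt io A} {N : ℕ} {ν : J → ℕ} {j₁ : J} {f : (j : J) → io j → K[X]}

theorem treePts (hk : ∀ a j, T.k a j ≤ N) (hη : η.NrmUp N) (hO : (η.cfg.red p.toPl).On T) (q : I) :
    TreePts T d fun _ : Unit => (η.cfg.red p.toPl).y q := by
  obtain ⟨k, _, _, _, ⟨D⟩⟩ := tl_red hη p.toPl
  refine ⟨k, _, _, ‹_›, D.α, D.t, fun _ => D.sp q, fun _ j => (D.c q j)⁻¹, D.ok, D.deg,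
    D.on hk hO, fun _ j => inv_ne_zero (D.c_ne q j), fun _ j i => ?_⟩
  rw [← D.y_eq q, eq_inv_mul_iff_mul_eq₀ (D.c_ne q j)]
  rfl

theorem sw_red (hL : Line T d ν j₁ f) (hk : ∀ a j, T.k a j ≤ N) (hη : η.NrmUp N)
    (hO : (η.cfg.red p.toPl).On T) (q : I) : Sw f ((η.cfg.red p.toPl).y q) :=
  ⟨η.cfg_nz.red _ q, fun Q κ h1 h2 => hL.sw Q κ h1 h2 E _ (treePts hk hη hO q)⟩

/-- one more point -/
def add (η : Dat io d I L) (t : Option L) : Dat io d (Option I) L :=
  ⟨η.f, fun q => q.elim t η.x, η.cp⟩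

theorem on_add (hk : ∀ a j, T.k a j ≤ N) (hη : η.NrmUp N) (hO : (η.cfg.red p.toPl).On T)
    (t : Option L) : (add η t).NrmUp N ∧ ((add η t).cfg.red p.toPl).On T := by
  have h1 : ((add η t).res some).NrmUp N := hη
  have h2 := Dat.nrmUp_of_res h1
  exact ⟨h2, (Cfg.on_res (g := some)
    (fun a => (Dat.nr_cfg (h1 _ (hk a))).red (add η t).cfg_nz p)
    ((tl_red h2 p.toPl).sv_mem_Vt hk)).1 hO⟩

theorem swP (hL : Line T d ν j₁ f) (hk : ∀ a j, T.k a j ≤ N) (hη : η.NrmUp N)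
    (hO : (η.cfg.red p.toPl).On T) (h : GR p.toPl η.f s g) (hg : ∀ j i, (g j i).natDegree ≤ d j) :
    SwP f g := by
  intro Q κ h1 h2
  refine eq_zero_of_infinite_isRoot _ ((Set.infinite_range_of_injective
    (algebraMap ℂ E).injective).mono ?_)
  rintro _ ⟨c, rfl⟩
  obtain ⟨h3, h4⟩ := on_add hk hη hO (some (algebraMap ℂ L c))
  choose u hu using gr_pt (η := add η (some (algebraMap ℂ L c))) (q := none) (τ := some c) h hg rfl
  have h5 : (pf g Q).eval (algebraMap ℂ E c) =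
      pv (scl u (((add η (some (algebraMap ℂ L c))).cfg.red p.toPl).y none)) Q := by
    refine (MvPolynomial.comp_aeval_apply (fun v : Vr io => g v.1 v.2)
      ((aeval (R := E) (algebraMap ℂ E c)).restrictScalars ℂ) Q).trans ?_
    exact congrArg (fun y : Vr io → E => MvPolynomial.aeval y Q) (funext fun v => hu v.1 v.2)
  change (pf g Q).eval _ = 0
  rw [h5, pv_scl h1, (sw_red hL hk h3 h4 none).2 Q κ h1 h2, mul_zero]

theorem bas_eq {y y' : Pnt io E} (h : ∀ j, ν j ≠ 0 → ∃ u : E, u ≠ 0 ∧ ∀ i, y j i = u * y' j i) :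
    bas ν y = bas ν y' := by
  refine congrArg (IntermediateField.adjoin ℂ) (Set.ext fun t => exists_congr fun j => exists_congr fun i =>
    exists_congr fun i' => and_congr_right fun hj => ?_)
  obtain ⟨u, hu, e⟩ := h j hj
  rw [e, e, mul_div_mul_left _ _ hu]

/-- **GOOD** -/
theorem good_of (hV : VanStmt) (hS : SqStmt) (hM : MobStmt) : GoodStmt := by
  intro B hB J _ _ io _ _ A _ T d ν j₁ K _ _ _ f hL N hk I M L E _ _ _ _ _ _ η m q₀ a b c hη _
    ha hb hc' p hO hne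
  classical
  obtain ⟨s, g, h, hg⟩ := exists_gr p.toPl η.cp
  have hz := η.cfg_nz.red p.toPl
  set z := η.cfg.red p.toPl with hzd
  have hne' : (∏ q, hc B j₁ E (z.y (m q))) * ∏ j, hc B j E (z.y (m q₀)) ^ ν j ≠ 0 := hne
  have hcon : ∀ q j, ν j ≠ 0 → ∃ u : E, u ≠ 0 ∧ ∀ i, (g j i).coeff 0 = u * z.y q j i :=
    fun q j hj => gr_const h hg q (hL.zero j hj)
  have hbase : ∀ q, ∏ j, hc B j E (z.y (m q₀)) ^ ν j = ∏ j, hc B j E (z.y q) ^ ν j := fun q =>
    Finset.prod_congr rfl fun j _ => by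
      by_cases hj : ν j = 0
      · rw [hj, pow_zero, pow_zero]
      · obtain ⟨u, hu, e⟩ := hcon (m q₀) j hj
        obtain ⟨u', hu', e'⟩ := hcon q j hj
        rw [← hc_par (y := fun j i => (g j i).coeff 0) hB (hz _ j) hu e,
          hc_par (y := fun j i => (g j i).coeff 0) hB (hz _ j) hu' e']
  have key : ∀ (q q' : M) (v w : io j₁ → E) (u u' : E), q ≠ q' → (∀ i, v i = u * z.y (m q) j₁ i) →
      (∀ i, w i = u' * z.y (m q') j₁ i) → (∃ i, v i ≠ 0) → (∃ i, w i ≠ 0) →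
      (∀ i i', v i * w i' = v i' * w i) → False := by
    intro q q' v w u u' hq e e' h1 h2 h3
    obtain ⟨t, ht, h4⟩ := par_of_minor h1 h2 h3
    have hu : u ≠ 0 := fun h0 => h1.elim fun i hi => hi (by rw [e, h0, zero_mul])
    have hu' : u' ≠ 0 := fun h0 => h2.elim fun i hi => hi (by rw [e', h0, zero_mul])
    have h5 : hc B j₁ E (z.y (m q)) = hc B j₁ E (z.y (m q')) :=
      hc_par hB (hz _ j₁) (u := u⁻¹ * (t * u')) (by simp [hu, hu', ht]) fun i => by
        rw [mul_assoc, mul_assoc, ← e', ← h4, e, inv_mul_cancel_left₀ hu]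
    obtain ⟨r, hr⟩ := Finset.prod_dvd_prod_of_subset {q, q'} Finset.univ
      (fun q => hc B j₁ E (z.y (m q))) (Finset.subset_univ _)
    refine hne' ?_
    rw [hr, Finset.prod_pair hq, h5, hbase (m q'), ← sq, mul_right_comm,
      hS B hB T d ν j₁ f hL E _ (sw_red hL hk hη hO (m q')), zero_mul]
  refine ⟨s, g, h, hM T d ν j₁ f hL E g hg (fun j => ?_) (swP hL hk hη hO h hg) ?_ ?_⟩
  · obtain ⟨i, l, hl⟩ := h.one j
    exact ⟨i, fun h0 => by simp [h0] at hl⟩
  · rw [bas_eq (y' := z.y (m q₀)) (hcon (m q₀))]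
    by_contra h0
    exact hne' (by rw [hV B hB ν E _ (hz _) (not_le.1 h0), mul_zero])
  · by_contra h0
    push Not at h0
    obtain ⟨ua, ea⟩ := gr_pt (τ := none) h hg ha j₁
    obtain ⟨ub, eb⟩ := gr_pt (τ := some 0) h hg (hb.trans (by simp)) j₁
    obtain ⟨uc, ec⟩ := gr_pt (τ := some 1) h hg (hc'.trans (by simp)) j₁
    have h1 : ∀ i, (g j₁ i).natDegree ≤ 1 := fun i => hL.one ▸ hg j₁ i
    have ea' : ∀ i, (g j₁ i).coeff 1 = ua * z.y (m a) j₁ i := fun i => by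
      rw [← ea, hL.one]; rfl
    have eb' : ∀ i, (g j₁ i).coeff 0 = ub * z.y (m b) j₁ i := fun i => by
      rw [← eb]; simp [hv, coeff_zero_eq_eval_zero]
    have ec' : ∀ i, (g j₁ i).coeff 0 + (g j₁ i).coeff 1 = uc * z.y (m c) j₁ i := fun i => by
      rw [← ec]
      simp [hv, eval_eq_sum_range' (Nat.lt_succ_of_le (h1 i)), Finset.sum_range_succ]
    have hab : b ≠ a := fun e => by rw [e, ha] at hb; cases hb
    have hac : a ≠ c := fun e => by rw [e, hc'] at ha; cases ha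
    have hbc : b ≠ c := fun e => by
      rw [e, hc'] at hb
      exact one_ne_zero (Option.some.inj hb)
    obtain ⟨i, l, hl⟩ := h.one j₁
    have h3 : l ≤ 1 := (le_natDegree_of_ne_zero (hl ▸ one_ne_zero)).trans (h1 i)
    by_cases h4 : ∃ i, (g j₁ i).coeff 0 ≠ 0
    · by_cases h5 : ∃ i, (g j₁ i).coeff 1 ≠ 0
      · exact key b a _ _ ub ua hab eb' ea' h4 h5 h0
      · push Not at h5
        exact key b c _ _ ub uc hbc eb' ec' h4 (by simpa [h5] using h4) fun i i' => by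
          simp [h5, mul_comm]
    · push Not at h4
      have h5 : ∃ i, (g j₁ i).coeff 1 ≠ 0 := ⟨i, by
        interval_cases l
        · rw [h4] at hl; exact absurd hl zero_ne_one
        · rw [hl]; exact one_ne_zero⟩
      exact key a c _ _ ua uc hac ea' ec' h5 (by simpa [h4] using h5) fun i i' => by
        simp [h4, mul_comm]

end Crest.Agent.X262.NumGood
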